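import Mathlib
import Vale.Agent.Lib.P226.Merge

open MeasureTheory ProbabilityTheory Real

namespace Vale.Agent.Results.P226.SmallCells

/-- The functional `F(A) = ∑ i, |z(A i)|²`, where `z(A i) = ∫_{A i} x dγ_d(x)` is the Gaussian first
moment of the cell `A i` and `γ_d` is the standard Gaussian measure of `ℝ^d`. -/
noncomputable def energy {d k : ℕ} (A : Fin k → Set (EuclideanSpace ℝ (Fin d))) : ℝ :=
  ∑ i, ‖∫ x in A i, x ∂(stdGaussian (EuclideanSpace ℝ (Fin d)))‖ ^ 2

/-- A finite family of pairwise disjoint measurable cells (in particular any finite measurable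
partition). -/
def IsCells {d k : ℕ} (A : Fin k → Set (EuclideanSpace ℝ (Fin d))) : Prop :=
  (∀ i, MeasurableSet (A i)) ∧ Pairwise (Function.onFun Disjoint A)

/-- Bounds for the propeller functional, in every dimension and for every number of cells. -/
theorem result (d k : ℕ) (A : Fin k → Set (EuclideanSpace ℝ (Fin d))) (hA : IsCells A) :
    energy A ≤ 1 / 2 ∧
    (∀ i, energy A ≤ 1 - (stdGaussian (EuclideanSpace ℝ (Fin d)) (A i)).toReal) ∧
    ((∀ i, stdGaussian (EuclideanSpace ℝ (Fin d)) (A i) ≤ 1 / 12) → energy A ≤ 9 / (8 * π)) ∧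
    (∀ (m : ℕ) (c : ℝ), 0 < m →
      (∀ G : Fin m → Set (EuclideanSpace ℝ (Fin d)), IsCells G → energy G ≤ c) →
      (1 - 1 / (m : ℝ)) * energy A ≤ c) := by
  refine ⟨Vale.Agent.Lib.P226.universal A hA.1 hA.2,
    fun i => Vale.Agent.Lib.P226.big_cell A hA.1 hA.2 i, fun hsmall => ?_, fun m c hm hc => ?_⟩
  · apply Vale.Agent.Lib.P226.small_cells A hA.1 hA.2
    intro i
    have h := hsmall i
    have h2 : (stdGaussian (EuclideanSpace ℝ (Fin d)) (A i)).toReal ≤ ((1 : ENNReal) / 12).toReal :=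
      ENNReal.toReal_mono (by simp) h
    have h3 : ((1 : ENNReal) / 12).toReal = 1 / 12 := by
      rw [ENNReal.toReal_div]
      simp
    rw [h3] at h2
    exact h2
  · exact Vale.Agent.Lib.P226.merge hm c (fun G h1 h2 => hc G ⟨h1, h2⟩) A hA.1 hA.2

end Vale.Agent.Results.P226.SmallCells
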